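import Vale.Agent.P074.Admissible
import Vale.Agent.P074.Example

/-! The stability exponent of quadratic optimal transport maps from a convex body is exactly one
third, and it is attained. -/

namespace Vale.Agent.Results.P074.StabilityExponentOneThird

open MeasureTheory
open Vale.Agent.P074

theorem result : ∀ d : ℕ, 2 ≤ d →
    IsGreatest {α : ℝ | 0 < α ∧ α ≤ 1 ∧ Admissible d α} (1 / 3) ∧
    sSup {α : ℝ | 0 < α ∧ α ≤ 1 ∧ Admissible d α} = 1 / 3 ∧
    (∀ α : ℝ, 0 < α → (Admissible d α ↔ α ≤ 1 / 3)) ∧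
    (∀ K : Set (Spc d), IsCompact K → Convex ℝ K → (interior K).Nonempty →
      ∀ Y : Set (Spc d), IsCompact Y → ∀ μ : Measure (Spc d), IsProbabilityMeasure μ → μ Yᶜ = 0 →
        (∃ T, IsOptimalMap (uniformOn K) μ T) ∧
          ∀ T S, IsOptimalMap (uniformOn K) μ T → IsOptimalMap (uniformOn K) μ S →
            T =ᵐ[uniformOn K] S) := by
  intro d hd
  have key : ∀ α : ℝ, 0 < α → (Admissible d α ↔ α ≤ 1 / 3) := fun α hα =>
    ⟨fun h => le_of_not_gt fun hlt => not_admissible hd hlt h,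
      fun h => admissible (by omega) hα h⟩
  have hg : IsGreatest {α : ℝ | 0 < α ∧ α ≤ 1 ∧ Admissible d α} (1 / 3) :=
    ⟨⟨by norm_num, by norm_num, (key _ (by norm_num)).2 le_rfl⟩,
      fun α hα => (key α hα.1).1 hα.2.2⟩
  refine ⟨hg, hg.csSup_eq, key, fun K hK hKc hKi Y hY μ _ hμY => ?_⟩
  exact optimal_exists_unique (by omega) K hK hKc hKi Y hY μ hμY

end Vale.Agent.Results.P074.StabilityExponentOneThird
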